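import Vale.Agent.P281.H575.MC.Van
import Vale.Agent.P281.H368.MFS.Gr2
import Vale.Agent.P281.H167.ML.Iface

/-! P281, theorem ML, row F. -/

open scoped Manifold ContDiff Topology
open Set Filter Vale.Agent.P281 Vale.Agent.P272.K Vale.Agent.P299

noncomputable section

namespace Vale.Agent.P281.H575.MC

open Vale.Agent.P281.H368.MFS

/-- **Row F** of theorem ML. -/
theorem fibPartL : H167.ML.FibPartL := by
  intro n p d hnpd X Z Y F _ _ _ _ _ _ _ _ _ _ _ _ _ _ _ _ _ _ _ _ χ hχ Δ hΔ m hm k hk α θ hα hθ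
    W j hj f hf i hi hne hd νF hνF hloc hrkF m₁ hm₁ k₁ hk₁ σ hσ t₀ ht₀
  exact fib_van growthPartM hnpd hχ hΔ hm hk hα hθ hj hf hi hne hd hrkF hνF hloc hm₁ hk₁ hσ ht₀

end Vale.Agent.P281.H575.MC
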