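import Vale.Agent.P281.H575.MFS.Fib

/-! P281, the sections of `m₁ (K_F + Δ|_F)` vanish if `m (K_F + Δ|_F)` is numerically
`m (θ - α) + N` and `θ|_F` is nowhere positive definite. -/

open scoped Manifold ContDiff Topology ComplexOrder Matrix
open Set Filter Vale.Agent.P281 Vale.Agent.P281.MF Vale.Agent.P272.K Vale.Agent.P299
open Vale.Agent.P285.TM Vale.Agent.P285.H591.TM
open Vale.Agent.P281.H949.SA Vale.Agent.P281.H716 Vale.Agent.P281.H716.IsSys
open Vale.Agent.P272.K.AMP (hess)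
open Vale.Agent.P272.K.INT (IsClosedForm)
open Vale.Agent.P281.H342.KD Vale.Agent.P281.H342.KG
open Vale.Agent.P281.H713 Vale.Agent.P281.H713.SA
open Vale.Agent.P281.H776.KD (isClosedForm_pullM psd_pull adjF mem_iffE)
open Vale.Agent.P281.H368.MFS

set_option linter.all false

noncomputable section

namespace Vale.Agent.P281.H575.MC

open Vale.Agent.P281.H575.MFS
open Vale.Agent.P281.H949.GM (holAt_ev)
open Vale.Agent.P281.H167.GM (mixX addF isClosed_addF psd_real_smul)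

/-- the rank does not depend on the chart -/
theorem rank_chart {d : ℕ} {F : Type} [TopologicalSpace F] [ChartedSpace (Cm d) F]
    [IsManifold 𝓘(ℂ, Cm d) ω F] {τ : D.FormM d F} (hτ : IsSemiPos τ) {e e' : Chart d F} {x : F}
    (h : At e x) (h' : At e' x) : (τ e (e x)).rank = (τ e' (e' x)).rank := by
  have h1 : (jacM e e' x).det ≠ 0 := jacM_det_ne_zero h h'
  have h2 : ((jacM e e' x).map (starRingEnd ℂ)).det = (starRingEnd ℂ) (jacM e e' x).det := by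
    rw [RingHom.map_det]
    rfl
  have h3 : IsUnit ((jacM e e' x).map (starRingEnd ℂ)).det := by
    rw [h2, isUnit_iff_ne_zero]
    simpa using h1
  have h4 : IsUnit (jacM e e' x).transpose.det := by
    rw [Matrix.det_transpose, isUnit_iff_ne_zero]
    exact h1
  rw [hτ.change e e' x h h', Matrix.rank_mul_eq_left_of_isUnit_det _ _ h3,
    Matrix.rank_mul_eq_right_of_isUnit_det _ _ h4]

/-- **the fibre side** -/
theorem fib_van (hgr : GrowthPartM) {n p d : ℕ} (hnpd : n = p + d) {X Z Y F : Type}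
    [TopologicalSpace X] [T2Space X] [CompactSpace X] [ConnectedSpace X]
    [ChartedSpace (Cm n) X] [IsManifold 𝓘(ℂ, Cm n) ω X]
    [TopologicalSpace Z] [ChartedSpace (Cm n) Z] [IsManifold 𝓘(ℂ, Cm n) ω Z]
    [TopologicalSpace Y] [T2Space Y] [ConnectedSpace Y]
    [ChartedSpace (Cm p) Y] [IsManifold 𝓘(ℂ, Cm p) ω Y]
    [TopologicalSpace F] [T2Space F] [CompactSpace F] [ConnectedSpace F]
    [ChartedSpace (Cm d) F] [IsManifold 𝓘(ℂ, Cm d) ω F]
    {χ : D.FormM n X} (hχ : IsKahler χ)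
    {Δ : Set X → ℝ} (hΔ : J.IsSNC (Cm n) Δ)
    {m : ℕ} (hm : 0 < m) {k : Set X → ℕ} (hk : ∀ D, (k D : ℝ) = m * Δ D)
    {α θ : D.FormM n X} (hα : IsSemiPos α) (hθ : IsSemiPos θ) {W : X → ℝ}
    {j : Z → X} (hj : J.IsBigOpen (Cm n) j) {f : Z → Y} (hf : ContMDiff 𝓘(ℂ, Cm n) 𝓘(ℂ, Cm p) ω f)
    {i : F → Z} (hi : IsSmoothFibre (Cm n) (Cm p) (Cm d) f i)
    (hne : ∀ D, Δ D ≠ 0 → ∃ t, j (i t) ∉ D)
    (hd : Dense {t | (pull (fun t => j (i t)) α (chartAt (Cm d) t) (chartAt (Cm d) t t)).PosDef})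
    (hrkF : ∀ t, (pull (fun t => j (i t)) θ (chartAt (Cm d) t) (chartAt (Cm d) t t)).rank < d)
    {νF : ℕ}
    (hνF : ∃ t, νF ≤ (pull (fun t => j (i t)) θ (chartAt (Cm d) t) (chartAt (Cm d) t t)).rank)
    (hloc : ∀ t : F, ∃ (r : ℕ) (g : Fin r → X → ℂ) (a : Fin r → ℕ),
      VolLoc n m (fun (D : Set X) z g => J.IsLocalEq (Cm n) D g z) k W α θ (j (i t)) g a ∧
      (∀ l, J.dif (Cm d) (fun t => g l (j (i t))) t ≠ 0) ∧
      ∀ᶠ s in 𝓝 t, ∀ l, g l (j (i s)) = 0 →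
        ConAt d (fun t => g l (j (i t))) (pull (fun t => j (i t)) α)
          (pull (fun t => j (i t)) θ) s ∨
        SmallAt d νF (fun t => g l (j (i t))) (pull (fun t => j (i t)) θ) s)
    {m₁ : ℕ} (hm₁ : 0 < m₁) {k₁ : Set X → ℕ}
    (hk₁ : ∀ D, (k₁ D : ℝ) = m₁ * Δ D) {σ : F → ℂ}
    (hσ : J.IsSection (Cm d) (fun (D : Set X) t g => ∃ e, J.IsLocalEq (Cm n) D e (j (i t)) ∧
      ∀ᶠ t' in 𝓝 t, g t' = e (j (i t'))) m₁ k₁ σ) {t₀ : F}
    (ht₀ : ∀ D, k₁ D ≠ 0 → ∃ g : F → ℂ, (∃ e, J.IsLocalEq (Cm n) D e (j (i t₀)) ∧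
      ∀ᶠ t' in 𝓝 t₀, g t' = e (j (i t'))) ∧ g t₀ ≠ 0) : σ t₀ = 0 := by
  classical
  by_contra hσ0
  haveI : Nonempty F := ⟨t₀⟩
  -- the divisors
  set T : Finset (Set X) := hΔ.1.toFinset with hTdef
  have hTΔ : ∀ D, D ∈ T ↔ Δ D ≠ 0 := fun D => Set.Finite.mem_toFinset _
  have hTex : ∀ D ∈ T, ∀ x, ∃ g, J.IsLocalEq (Cm n) D g x := fun D hD =>
    (hΔ.2.1 D ((hTΔ D).1 hD)).2.1
  have hkT' : ∀ (m : ℕ), 0 < m → ∀ k : Set X → ℕ, (∀ D, (k D : ℝ) = m * Δ D) → ∀ D, k D ≠ 0 ↔ D ∈ T := by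
    intro m hm k hk D
    rw [hTΔ]
    have h1 : (m : ℝ) ≠ 0 := by exact_mod_cast hm.ne'
    constructor
    · intro h2 h3
      have := hk D
      rw [h3, mul_zero] at this
      exact h2 (by exact_mod_cast this)
    · intro h2 h3
      have := hk D
      rw [h3, Nat.cast_zero] at this
      exact mul_ne_zero h1 h2 this.symm
  have hjh : ∀ z, HolM (Cm n) (Cm n) j z := fun z => hj.1 z
  have hfh : ∀ z, HolM (Cm n) (Cm p) f z := fun z => hf z
  have hih : ∀ z, HolM (Cm d) (Cm n) i z := fun z => hi.hol z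
  have hι : ContMDiff 𝓘(ℂ, Cm d) 𝓘(ℂ, Cm n) ω (fun t => j (i t)) := fun t =>
    ContMDiffAt.comp t (hjh (i t)) (hih t)
  have hsF : IsSys d (H776.KD.eqF n (fun t => j (i t))) T :=
    H776.KD.isSys_eqF hι hTex fun D hD => hne D ((hTΔ D).1 hD)
  have hjd : ∀ z, (dM (Cm n) (Cm n) j z).det ≠ 0 := fun z => det_ne_of_inj' (hj.2.2.1 z)
  obtain ⟨G, hG0, hG⟩ := adjF (n := n) (p := p) (d := d) hnpd hjh hjd hfh hi
  have himm : ∀ t, Function.Injective (mfderiv 𝓘(ℂ, Cm d) 𝓘(ℂ, Cm n) (fun t => j (i t)) t) := by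
    intro t
    have h1 : mfderiv 𝓘(ℂ, Cm d) 𝓘(ℂ, Cm n) (fun t => j (i t)) t =
        (mfderiv 𝓘(ℂ, Cm n) 𝓘(ℂ, Cm n) j (i t)).comp (mfderiv 𝓘(ℂ, Cm d) 𝓘(ℂ, Cm n) i t) :=
      mfderiv_comp t ((hjh (i t)).mdifferentiableAt (by simp))
        ((hih t).mdifferentiableAt (by simp))
    rw [h1]
    exact (hj.2.2.1 (i t)).comp (hi.immersive t)
  obtain ⟨χF, hχF⟩ := H167.SA.pullPart n d X F (fun t => j (i t)) hι himm χ hχ
  -- the enumeration of the divisors, the metrics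
  set Dv : Fin T.card → Set X := fun l => (T.equivFin.symm l : Set X) with hDvdef
  have hDv : ∀ l, Dv l ∈ T := fun l => (T.equivFin.symm l).2
  have hprod : ∀ f : Set X → ℂ, ∏ l, f (Dv l) = ∏ D ∈ T, f D := by
    intro f
    rw [← Finset.prod_coe_sort T]
    exact Equiv.prod_comp T.equivFin.symm fun D : T => f D
  choose ψ hψ using fun l : Fin T.card => Vale.Agent.P285.H281.KN.exists_wt (OD hsF (Dv l) (hDv l))
  have hφ := Vale.Agent.P272.S2B.isCanonical_log_det hχF.toIsHermitian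
  set φ : Chart d F → Cm d → ℝ := fun e z => Real.log (χF e z).det.re with hφdef
  set dl : Fin T.card → ℝ := fun l => Δ (Dv l) with hdldef
  have hαF : IsSemiPos (pull (fun t => j (i t)) α) := isSemiPos_pull hι hα
  have hθF : IsSemiPos (pull (fun t => j (i t)) θ) := isSemiPos_pull hι hθ
  set αF : D.FormM d F := pull (fun t => j (i t)) α with hαFdef
  set θF : D.FormM d F := pull (fun t => j (i t)) θ with hθFdef
  obtain ⟨ν', e, x, hx, hP, hrk, hmax⟩ := H575.MFS.exists_point hθF.isClosedForm hαF.isClosedForm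
    hαF.posSemidef hd
  have hνF' : νF ≤ ν' := by
    obtain ⟨t, ht⟩ := hνF
    exact ht.trans (hmax _ _ ⟨chart_mem_atlas _ _, mem_chart_source _ _⟩)
  -- the rank
  have hν'd : ν' < d := by
    rw [← hrk, rank_chart hθF hx ⟨chart_mem_atlas _ _, mem_chart_source _ _⟩]
    exact hrkF x
  -- the class of `K + Δ`
  set cl : D.FormM d F := H713.KD.clsK φ dl (fun l => cv (OD hsF (Dv l) (hDv l)) (ψ l)) with hcldef
  have hcl : IsClosedForm cl := closed_cls (fun l => isClosedForm_cv (hψ l)) hφ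
  set Λ : D.FormM d F := fun e z => cl e z - (θF e z - αF e z) with hΛdef
  have hΛ : IsClosedForm Λ := by
    have h1 := (hcl.add hαF.isClosedForm).add (hθF.isClosedForm.smul (-1))
    have h2 : (fun (e : Chart d F) z => (cl e z + αF e z) + (-1 : ℂ) • θF e z) = Λ := by
      funext e z
      rw [hΛdef]
      simp only [neg_smul, one_smul]
      abel
    rw [← h2]
    exact h1
  set ρ : F → ℝ := H342.MFS.rhoW hsF Dv ψ φ k m (fun t => W (j (i t)) * ‖G t ^ m‖ ^ 2) with hρdef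
  have hlocF : ∀ t : F, ∃ (r : ℕ) (g : Fin r → F → ℂ) (a : Fin r → ℕ) (w : F → ℂ),
      H167.KG.LocAt m Λ ρ t g a (fun (_ : Fin 1) => w) ∧
      ∀ᶠ z in 𝓝 t, ∀ l, g l z = 0 → ConAt d (g l) αF θF z ∨ SmallAt d ν' (g l) θF z := by
    intro t
    obtain ⟨r, g, a, hV, hdif, hev⟩ := hloc t
    have hVF := volLoc_fib hι hG hV hdif
    obtain ⟨w, hL⟩ := locAt_vol (dl := dl) hsF hprod hDv hψ hφ (fun D => (hkT' m hm k hk D).1)
      (fun l => hk (Dv l)) hVF
    have hhol : ∀ᶠ s in 𝓝 t, ∀ l, J.HolAt (Cm n) (g l) (j (i s)) := by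
      rw [eventually_all]
      intro l
      exact hι.continuous.continuousAt.eventually (holAt_ev (hV.holg l).1)
    refine ⟨r, fun l t => g l (j (i t)), a, w, hL, ?_⟩
    filter_upwards [hev, hhol] with s h1 h2 l hl
    rcases h1 l hl with h | h
    · exact Or.inl h
    · right
      obtain ⟨K, hK1, hK2⟩ := h
      exact ⟨K, hK1.trans (Nat.add_le_add_right hνF' _), hK2⟩
  obtain ⟨-, -, -, hρs, hρ0, -⟩ := H342.KG.formPartG d F χF hχF m hm Λ hΛ ρ fun t => by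
    obtain ⟨r, g, a, w, hL, -⟩ := hlocF t
    exact ⟨r, 1, g, a, fun _ => w, hL⟩
  obtain ⟨C₁, hC₁⟩ := hgr d F χF hχF m hm Λ hΛ ρ hρs hρ0 αF θF hαF hθF ν' hmax hlocF
  -- the section
  have hoff : ∃ x ∈ off (H776.KD.eqF n (fun t => j (i t))) T, σ x ≠ 0 := by
    refine ⟨t₀, (H776.KD.off_eqF hι hTex).2 fun D hD hmem => ?_, hσ0⟩
    obtain ⟨g, ⟨e', he', hev'⟩, hg⟩ := ht₀ D ((hkT' m₁ hm₁ k₁ hk₁ D).2 hD)
    rw [hev'.self_of_nhds] at hg
    exact hg ((mem_iffE he').1 hmem)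
  have hnn : ∀ s : ℝ, 0 ≤ s → 0 ≤ mixX (addF αF s θF) cl := fun s hs =>
    H342.MFS.mix_nonneg_sec (m := m₁) (k := k₁) (s := σ) hsF hprod hDv hψ hφ
      (fun D => (hkT' m₁ hm₁ k₁ hk₁ D).1) (fun l => hk₁ (Dv l)) hm₁ hσ hoff hχF
      (isClosed_addF hαF.isClosedForm hθF.isClosedForm s)
      (fun e x hx => (hαF.posSemidef e x hx).add (psd_real_smul (hθF.posSemidef e x hx) hs))
  refine false_of_growth (C₁ := C₁ + C₁) hχF hθF.isClosedForm hαF.isClosedForm hαF.isClosedForm hcl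
    hθF.posSemidef hαF.posSemidef hαF.posSemidef hx hP hP hrk hν'd
    (Λ' := fun e z => cl e z + αF e z) (fun _ _ _ => rfl) hnn ?_
  refine ((eventually_ge_atTop (1 : ℝ)).mono fun s hs => ?_).frequently
  have h1 : mixX (addF αF s θF) (fun e z => cl e z + αF e z) =
      mixX (addF αF s θF) Λ + mixX (addF αF s θF) θF :=
    mixX_add (isClosed_addF hαF.isClosedForm hθF.isClosedForm s) hχF hΛ hθF.isClosedForm
      fun e x hx => by
        show cl e (e x) + αF e (e x) = cl e (e x) - (θF e (e x) - αF e (e x)) + θF e (e x)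
        abel
  rw [h1]
  have h2 := hC₁ s hs
  have h3 : (C₁ + C₁) * s ^ ν' / s = C₁ * s ^ ν' / s + C₁ * s ^ ν' / s := by ring
  rw [h3]
  exact add_le_add h2.1 h2.2

end Vale.Agent.P281.H575.MC
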